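import Vale.Agent.Lib.P302N.Search2

/-!
# Certificates for multi-level nested instances
-/

namespace Vale.Agent.Lib.P302N

open Vale.Agent.Lib.P302T

/-- One level of a nested instance: its items `Y`, the sorted list `lY` of these items together
with `u` wildcards, a rearrangement `sY` of the `3 (TY + 1)` smallest of them (the branching
order of the search), the number `TY` of triples the level adds, and a lower bound `xmin` for
the sizes of all items of the lower levels. -/
structure Level where
  Y : List ℕ
  lY : List ℕ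
  sY : List ℕ
  TY : ℕ
  u : ℕ
  xmin : ℕ

/-- Boolean check of one level on top of the items `X` with at most `tX` disjoint triples. -/
def levelOK (L w : ℕ) (X : List ℕ) (tX : ℕ) (l : Level) : Bool :=
  X.all (fun x => decide (l.xmin ≤ x)) &&
  (decide (X.length ≤ 3 * tX + l.u) &&
  (l.Y.all (fun y => decide (y + 2 * l.xmin ≤ L → y + 2 * w ≤ L)) &&
  (l.Y.all (fun y1 => l.Y.all (fun y2 => decide (y1 + y2 + l.xmin ≤ L → y1 + y2 + w ≤ L))) &&
  (decide (l.lY.Pairwise (fun x y => x ≤ y)) &&
  (decide (l.lY.Perm (l.Y ++ List.replicate l.u w)) &&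
  (decide (l.sY.Perm (l.lY.take (3 * (l.TY + 1)))) &&
  ((!(search2 L (l.TY + 1) l.sY)) &&
  decide ((l.Y.filter (fun y => decide (3 * y ≤ L))).length ≤ l.TY + 1))))))))

theorem level_bound (L w : ℕ) (hw : L < 3 * w) (X : List ℕ) (tX : ℕ) (l : Level)
    (hX : TBound L (X : Multiset ℕ) tX) (hok : levelOK L w X tX l = true) :
    TBound L ((X ++ l.Y : List ℕ) : Multiset ℕ) (tX + l.TY) := by
  simp only [levelOK, Bool.and_eq_true, List.all_eq_true, decide_eq_true_eq,
    Bool.not_eq_true'] at hok
  obtain ⟨hxmin, hu, hc1, hc2, hsorted, hperm, hperm2, hsearch, hneg⟩ := hok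
  rw [← Multiset.coe_add]
  refine nest L w l.xmin (X : Multiset ℕ) (l.Y : Multiset ℕ) tX l.TY l.u hw ?_ ?_ ?_ hX ?_ ?_ ?_
  · intro x hx
    exact hxmin x (Multiset.mem_coe.mp hx)
  · intro y hy
    exact hc1 y (Multiset.mem_coe.mp hy)
  · intro y1 hy1 y2 hy2
    exact hc2 y1 (Multiset.mem_coe.mp hy1) y2 (Multiset.mem_coe.mp hy2)
  · simpa using hu
  · have h1 := TBound_of_search2 L l.lY hsorted l.TY l.sY hperm2 hsearch
    have h2 : (l.lY : Multiset ℕ) = (l.Y : Multiset ℕ) + Multiset.replicate l.u w := by
      rw [← Multiset.coe_replicate, Multiset.coe_add]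
      exact Multiset.coe_eq_coe.mpr hperm
    rw [← h2]
    exact h1
  · have h3 : Multiset.filter (fun y => 3 * y ≤ L) (l.Y : Multiset ℕ)
        = ((l.Y.filter (fun y => decide (3 * y ≤ L)) : List ℕ) : Multiset ℕ) := by
      rw [Multiset.filter_coe]
    rw [h3, Multiset.coe_card]
    exact hneg

/-- Boolean check of a chain of levels. -/
def chainOK (L w : ℕ) : List ℕ → ℕ → List Level → Bool
  | _, _, [] => true
  | X, tX, l :: ls => levelOK L w X tX l && chainOK L w (X ++ l.Y) (tX + l.TY) ls

/-- all items of a chain of levels on top of `X` -/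
def chainItems : List ℕ → List Level → List ℕ
  | X, [] => X
  | X, l :: ls => chainItems (X ++ l.Y) ls

/-- the bound for the number of disjoint fitting triples of a chain of levels -/
def chainT : ℕ → List Level → ℕ
  | t, [] => t
  | t, l :: ls => chainT (t + l.TY) ls

theorem chain_bound (L w : ℕ) (hw : L < 3 * w) : ∀ (ls : List Level) (X : List ℕ) (tX : ℕ),
    TBound L (X : Multiset ℕ) tX → chainOK L w X tX ls = true →
    TBound L (chainItems X ls : Multiset ℕ) (chainT tX ls)
  | [], _, _, hX, _ => hX
  | l :: ls, X, tX, hX, hok => by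
    simp only [chainOK, Bool.and_eq_true] at hok
    exact chain_bound L w hw ls (X ++ l.Y) (tX + l.TY) (level_bound L w hw X tX l hX hok.1) hok.2

/-- lower bound for the number of bins of any packing, from a bound on the triples -/
theorem packing_bound' (L : ℕ) (s : List ℕ) (T : ℕ) (hL : 0 < L)
    (hq : ∀ x ∈ s, L < 4 * x) (hT : TBound L (s : Multiset ℕ) T)
    (B : ℕ) (f : Fin (scaled L s).length → Fin B) (hf : IsPacking (scaled L s) B f) :
    s.length ≤ 2 * B + T := by
  have hn : (scaled L s).length = s.length := by simp [scaled]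
  set g : Fin (scaled L s).length → ℕ := fun i => s[i.val]'(hn ▸ i.isLt) with hg
  have hget : ∀ i, (scaled L s).get i = (g i : ℚ) / L := by
    intro i
    show (scaled L s)[i.val] = _
    simp only [scaled, List.getElem_map, hg]
  have hLq : (0 : ℚ) < L := by exact_mod_cast hL
  have hbound := bins_bound (n := (scaled L s).length) (L := L) g
    (fun i => hq _ (List.getElem_mem _)) T ?_ B f ?_
  · omega
  · intro S hS
    have hle : S.val.map g ≤ (s : Multiset ℕ) := by
      rw [← univ_map_eq s _ hn g (fun i => rfl)]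
      exact Multiset.map_le_map (Finset.val_le_iff.mpr (Finset.subset_univ S))
    have := hT _ hle hS
    simpa using this
  · intro b
    have h1 := hf b
    simp only [hget] at h1
    rw [← Finset.sum_div, div_le_one hLq] at h1
    exact_mod_cast h1

/-- lower bound for `OPT` from a bound on the number of disjoint fitting triples -/
theorem opt_ge' (L : ℕ) (s : List ℕ) (T K : ℕ) (hL : 0 < L)
    (hq : ∀ x ∈ s, L < 4 * x) (hle : ∀ x ∈ s, x ≤ L)
    (hT : TBound L (s : Multiset ℕ) T)
    (hK : 2 * K + T ≤ s.length + 1) : K ≤ OPT (scaled L s) := by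
  have hinst : IsInstance (scaled L s) :=
    scaled_isInstance L s (fun x hx => by have := hq x hx; omega) hle
  have hne : {B : ℕ | ∃ f : Fin (scaled L s).length → Fin B, IsPacking (scaled L s) B f}.Nonempty :=
    ⟨_, packing_exists _ hinst⟩
  obtain ⟨f, hf⟩ := Nat.sInf_mem hne
  have := packing_bound' L s T hL hq hT _ f hf
  unfold OPT
  omega

/-- Gap certificate for a nested instance: all sizes in `(L/4, L]`, at most `T` disjoint
fitting triples, and an explicit fractional solution. -/
theorem gap_certificate' (L D : ℕ) (s : List ℕ) (T K : ℕ) (cert : List (List ℕ × ℕ))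
    (hL : 0 < L) (hD : 0 < D)
    (hq : ∀ x ∈ s, L < 4 * x) (hle : ∀ x ∈ s, x ≤ L)
    (hT : TBound L (s : Multiset ℕ) T)
    (hK : 2 * K + T ≤ s.length + 1) (hcheck : lpCheck L D s cert = true) :
    IsInstance (scaled L s) ∧
      (K : ℝ) - (((cert.map (fun p => p.2)).sum : ℕ) : ℝ) / D
        ≤ (OPT (scaled L s) : ℝ) - LP (scaled L s) := by
  refine ⟨scaled_isInstance L s (fun x hx => by have := hq x hx; omega) hle, ?_⟩
  have h1 : (K : ℝ) ≤ OPT (scaled L s) := by
    exact_mod_cast opt_ge' L s T K hL hq hle hT hK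
  have h2 := lp_le L D hL hD s cert hcheck
  linarith

end Vale.Agent.Lib.P302N
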