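import Vale.Agent.Lib.P302N.Search2

/-!
# Breadth-first search with dominance for splitting into fitting triples

`bfs L k [l]` decides (one-sidedly) whether the list `l` of length `3 * k` splits into `k`
triples of sum at most `L`: if it does, `bfs` returns `true`.  The search proceeds level by
level; the states of a level are the lists of remaining items, and a state is dropped when
another kept state of the same level is elementwise at most as large (which makes the latter
at least as easy to split).
-/

namespace Vale.Agent.Lib.P302N

open Vale.Agent.Lib.P302T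

/-- the successors of a state: the triple of the head item is chosen in all essentially
different ways -/
def expand (L k : ℕ) : List ℕ → List (List ℕ)
  | [] => []
  | x :: rest =>
    if k * L < (x :: rest).sum then []
    else if ((x :: rest).filter (fun y => decide (3 * y ≤ L))).length < k then []
    else rest.dedup.filterMap (fun b =>
      if x + b ≤ L then
        match pickMax (L - x - b) (rest.erase b) with
        | none => none
        | some a => some ((rest.erase b).erase a)
      else none)

theorem expand_cons (L k x : ℕ) (rest : List ℕ) : expand L k (x :: rest) =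
    if k * L < (x :: rest).sum then []
    else if ((x :: rest).filter (fun y => decide (3 * y ≤ L))).length < k then []
    else rest.dedup.filterMap (fun b =>
      if x + b ≤ L then
        match pickMax (L - x - b) (rest.erase b) with
        | none => none
        | some a => some ((rest.erase b).erase a)
      else none) := rfl

/-- `dominates t s`: the lists have the same length and `t` is elementwise at most `s` -/
def dominates : List ℕ → List ℕ → Bool
  | [], [] => true
  | a :: t, b :: s => decide (a ≤ b) && dominates t s
  | _, _ => false

/-- insert a state unless it is dominated by a kept one -/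
def insertState (s : List ℕ) (acc : List (List ℕ)) : List (List ℕ) :=
  if acc.any (fun t => dominates t s) then acc else s :: acc

/-- drop dominated states -/
def pruneStates (l : List (List ℕ)) : List (List ℕ) := l.foldr insertState []

/-- level-by-level search; `true` if some state survives all `k` levels -/
def bfs (L : ℕ) : ℕ → List (List ℕ) → Bool
  | 0, frontier => frontier.any (fun s => s.isEmpty)
  | k + 1, frontier => bfs L k (pruneStates (frontier.flatMap (expand L (k + 1))))

theorem dominates_rel : ∀ (t s : List ℕ), dominates t s = true →
    Multiset.Rel (fun x y => x ≤ y) (t : Multiset ℕ) (s : Multiset ℕ) ∧ t.length = s.length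
  | [], [], _ => ⟨by simp, rfl⟩
  | [], _ :: _, h => by simp [dominates] at h
  | _ :: _, [], h => by simp [dominates] at h
  | a :: t, b :: s, h => by
    simp only [dominates, Bool.and_eq_true, decide_eq_true_eq] at h
    obtain ⟨hrel, hlen⟩ := dominates_rel t s h.2
    refine ⟨?_, by simp [hlen]⟩
    have h1 : ((a :: t : List ℕ) : Multiset ℕ) = a ::ₘ (t : Multiset ℕ) := rfl
    have h2 : ((b :: s : List ℕ) : Multiset ℕ) = b ::ₘ (s : Multiset ℕ) := rfl
    rw [h1, h2]
    exact Multiset.Rel.cons h.1 hrel

/-- some state of the frontier has length `3 * k` and splits into fitting triples -/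
def Good (L k : ℕ) (frontier : List (List ℕ)) : Prop :=
  ∃ s ∈ frontier, Splits L (s : Multiset ℕ) ∧ s.length = 3 * k

theorem expand_complete (L k : ℕ) (l : List ℕ) (hsp : Splits L (l : Multiset ℕ))
    (hlen : l.length = 3 * (k + 1)) : Good L k (expand L (k + 1) l) := by
  cases l with
  | nil => simp at hlen
  | cons x rest =>
    rw [expand_cons]
    obtain ⟨k', hk', hsum⟩ := hsp.card_sum
    have hkk : k' = k + 1 := by
      simp only [Multiset.coe_card] at hk'
      omega
    subst hkk
    have hsum' : ¬ ((k + 1) * L < (x :: rest).sum) := by
      have : ((x :: rest : List ℕ) : Multiset ℕ).sum = (x :: rest).sum := Multiset.sum_coe _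
      omega
    rw [if_neg hsum']
    have hneg' : ¬ (((x :: rest).filter (fun y => decide (3 * y ≤ L))).length < k + 1) := by
      obtain ⟨k2, hk2, hneg⟩ := splits_neg_count hsp
      have hkk2 : k2 = k + 1 := by
        simp only [Multiset.coe_card] at hk2
        omega
      subst hkk2
      have h3 : Multiset.filter (fun y => 3 * y ≤ L) ((x :: rest : List ℕ) : Multiset ℕ)
          = (((x :: rest).filter (fun y => decide (3 * y ≤ L)) : List ℕ) : Multiset ℕ) := by
        rw [Multiset.filter_coe]
      rw [h3, Multiset.coe_card] at hneg
      omega
    rw [if_neg hneg']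
    obtain ⟨b, a, S', hS', hfit, hsp'⟩ := hsp.exists_triple (x := x) (by simp)
    have hrest : (rest : Multiset ℕ) = b ::ₘ a ::ₘ S' := by
      have h1 : ((x :: rest : List ℕ) : Multiset ℕ) = x ::ₘ (rest : Multiset ℕ) := rfl
      rw [h1] at hS'
      exact (Multiset.cons_inj_right x).mp hS'
    have hb : b ∈ rest := by
      have : b ∈ (rest : Multiset ℕ) := by rw [hrest]; simp
      exact Multiset.mem_coe.mp this
    have herase : ((rest.erase b : List ℕ) : Multiset ℕ) = a ::ₘ S' := by
      rw [← Multiset.coe_erase, hrest, Multiset.erase_cons_head]
    have ha : a ∈ rest.erase b := by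
      have : a ∈ ((rest.erase b : List ℕ) : Multiset ℕ) := by rw [herase]; simp
      exact Multiset.mem_coe.mp this
    have hxb : x + b ≤ L := by omega
    cases hpick : pickMax (L - x - b) (rest.erase b) with
    | none =>
      have := pickMax_none hpick a ha
      omega
    | some a' =>
      obtain ⟨ha'mem, ha'b, ha'max⟩ := pickMax_some hpick
      have haa' : a ≤ a' := ha'max a ha (by omega)
      refine ⟨(rest.erase b).erase a', ?_, ?_, ?_⟩
      · rw [List.mem_filterMap]
        refine ⟨b, List.mem_dedup.mpr hb, ?_⟩
        rw [if_pos hxb, hpick]
      · rw [← Multiset.coe_erase, herase]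
        by_cases heq : a' = a
        · subst heq
          rw [Multiset.erase_cons_head]
          exact hsp'
        · have ha'S : a' ∈ S' := by
            have : a' ∈ ((rest.erase b : List ℕ) : Multiset ℕ) := Multiset.mem_coe.mpr ha'mem
            rw [herase, Multiset.mem_cons] at this
            rcases this with h | h
            · exact (heq h).elim
            · exact h
          rw [Multiset.erase_cons_tail _ (Ne.symm heq)]
          exact hsp'.replace ha'S haa'
      · rw [List.length_erase_of_mem ha'mem, List.length_erase_of_mem hb]
        simp only [List.length_cons] at hlen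
        omega

theorem insertState_subset (s : List ℕ) (acc : List (List ℕ)) :
    ∀ t ∈ acc, t ∈ insertState s acc := by
  intro t ht
  unfold insertState
  split_ifs
  · exact ht
  · exact List.mem_cons_of_mem _ ht

theorem pruneStates_complete (L k : ℕ) : ∀ (l : List (List ℕ)), Good L k l →
    Good L k (pruneStates l)
  | [], h => by
    obtain ⟨s, hs, _⟩ := h
    simp at hs
  | s0 :: l, h => by
    obtain ⟨s, hs, hsp, hlen⟩ := h
    have hfold : pruneStates (s0 :: l) = insertState s0 (pruneStates l) := rfl
    rw [hfold]
    rcases List.mem_cons.mp hs with rfl | hsl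
    · unfold insertState
      split_ifs with hdom
      · rw [List.any_eq_true] at hdom
        obtain ⟨t, ht, htd⟩ := hdom
        obtain ⟨hrel, hl⟩ := dominates_rel t s htd
        exact ⟨t, ht, hsp.mono_rel hrel, by omega⟩
      · exact ⟨s, List.mem_cons_self, hsp, hlen⟩
    · obtain ⟨t, ht, htsp, htlen⟩ := pruneStates_complete L k l ⟨s, hsl, hsp, hlen⟩
      exact ⟨t, insertState_subset s0 _ t ht, htsp, htlen⟩

theorem bfs_complete (L : ℕ) : ∀ (k : ℕ) (frontier : List (List ℕ)), Good L k frontier →
    bfs L k frontier = true
  | 0, frontier, h => by
    obtain ⟨s, hs, _, hlen⟩ := h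
    have : s = [] := List.length_eq_zero_iff.mp (by omega)
    subst this
    unfold bfs
    rw [List.any_eq_true]
    exact ⟨[], hs, rfl⟩
  | k + 1, frontier, h => by
    obtain ⟨s, hs, hsp, hlen⟩ := h
    unfold bfs
    apply bfs_complete L k
    apply pruneStates_complete
    obtain ⟨s', hs', hsp', hlen'⟩ := expand_complete L k s hsp hlen
    exact ⟨s', List.mem_flatMap.mpr ⟨s, hs, hs'⟩, hsp', hlen'⟩

/-- If `bfs` fails on a rearrangement of the `3 (T+1)` smallest items, then at most `T`
disjoint triples of items fit. -/
theorem TBound_of_bfs (L : ℕ) (l : List ℕ) (hs : l.Pairwise (fun x y => x ≤ y)) (T : ℕ)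
    (l' : List ℕ) (hperm : l'.Perm (l.take (3 * (T + 1))))
    (hsearch : bfs L (T + 1) [l'] = false) : TBound L (l : Multiset ℕ) T := by
  intro M hM hsp
  by_contra hcon
  obtain ⟨k, hk, _⟩ := hsp.card_sum
  have hj : 3 * (T + 1) ≤ Multiset.card M := by omega
  obtain ⟨M1, hM1, hsp1, hc1⟩ := hsp.sub (T + 1) hj
  have hrel := take_rel l hs (3 * (T + 1)) M1 (le_trans hM1 hM) hc1
  have hsp2 := hsp1.mono_rel hrel
  have hlen : l'.length = 3 * (T + 1) := by
    have h1 : Multiset.card M1 ≤ Multiset.card (l : Multiset ℕ) :=
      Multiset.card_le_card (le_trans hM1 hM)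
    simp only [Multiset.coe_card] at h1
    rw [hperm.length_eq, List.length_take]
    omega
  have hsp3 : Splits L ((l' : List ℕ) : Multiset ℕ) := by
    rw [Multiset.coe_eq_coe.mpr hperm]
    exact hsp2
  have := bfs_complete L (T + 1) [l'] ⟨l', List.mem_singleton.mpr rfl, hsp3, hlen⟩
  rw [hsearch] at this
  exact Bool.false_ne_true this

end Vale.Agent.Lib.P302N
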