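import Vale.Agent.Lib.P302N.Frontier

/-!
# Breadth-first search with dominance, accumulator form

`bfs2` is the search `bfs` of `Frontier`, rewritten so that the kept states of a level are
collected in an accumulator that is evaluated after each parent state.  The one-sided
guarantee is the same: if the list splits into fitting triples, `bfs2` returns `true`.
-/

namespace Vale.Agent.Lib.P302N

open Vale.Agent.Lib.P302T

/-- add the states of `l` to the kept states `acc`; a state dominated by a kept state is
dropped -/
def pruneAcc : List (List ℕ) → List (List ℕ) → List (List ℕ)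
  | [], acc => acc
  | s :: l, acc =>
    if acc.any (fun t => dominates t s) then pruneAcc l acc else pruneAcc l (s :: acc)

theorem pruneAcc_subset : ∀ (l acc : List (List ℕ)) (t : List ℕ), t ∈ acc → t ∈ pruneAcc l acc
  | [], _, _, h => h
  | s :: l, acc, t, h => by
    unfold pruneAcc
    split_ifs
    · exact pruneAcc_subset l acc t h
    · exact pruneAcc_subset l (s :: acc) t (List.mem_cons_of_mem _ h)

theorem good_of_subset (L k : ℕ) (a b : List (List ℕ)) (hab : ∀ t ∈ a, t ∈ b)
    (h : Good L k a) : Good L k b := by
  obtain ⟨s, hs, hsp, hlen⟩ := h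
  exact ⟨s, hab s hs, hsp, hlen⟩

theorem pruneAcc_complete (L k : ℕ) : ∀ (l acc : List (List ℕ)),
    Good L k acc ∨ Good L k l → Good L k (pruneAcc l acc)
  | [], acc, h => by
    rcases h with h | h
    · exact h
    · obtain ⟨s, hs, _⟩ := h
      simp at hs
  | s0 :: l, acc, h => by
    rcases h with h | h
    · exact good_of_subset L k acc _ (pruneAcc_subset (s0 :: l) acc) h
    · obtain ⟨s, hs, hsp, hlen⟩ := h
      unfold pruneAcc
      rcases List.mem_cons.mp hs with rfl | hsl
      · split_ifs with hdom
        · rw [List.any_eq_true] at hdom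
          obtain ⟨t, ht, htd⟩ := hdom
          obtain ⟨hrel, hl⟩ := dominates_rel t s htd
          exact pruneAcc_complete L k l acc (Or.inl ⟨t, ht, hsp.mono_rel hrel, by omega⟩)
        · exact pruneAcc_complete L k l (s :: acc)
            (Or.inl ⟨s, List.mem_cons_self, hsp, hlen⟩)
      · split_ifs
        · exact pruneAcc_complete L k l acc (Or.inr ⟨s, hsl, hsp, hlen⟩)
        · exact pruneAcc_complete L k l (s0 :: acc) (Or.inr ⟨s, hsl, hsp, hlen⟩)

/-- one level of the search: the successors of all states of the frontier, with dominated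
states dropped; the `match` only makes the accumulator evaluate after each parent state -/
def stepAcc (L k : ℕ) : List (List ℕ) → List (List ℕ) → List (List ℕ)
  | [], acc => acc
  | s :: fr, acc =>
    match pruneAcc (expand L k s) acc with
    | [] => stepAcc L k fr []
    | a :: acc' => stepAcc L k fr (a :: acc')

theorem stepAcc_cons (L k : ℕ) (s : List ℕ) (fr acc : List (List ℕ)) :
    stepAcc L k (s :: fr) acc = stepAcc L k fr (pruneAcc (expand L k s) acc) := by
  rw [stepAcc]
  cases pruneAcc (expand L k s) acc with
  | nil => rfl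
  | cons a acc' => rfl

theorem stepAcc_complete (L k : ℕ) : ∀ (fr acc : List (List ℕ)),
    (Good L k acc ∨ ∃ s ∈ fr, Good L k (expand L (k + 1) s)) →
    Good L k (stepAcc L (k + 1) fr acc)
  | [], acc, h => by
    rcases h with h | ⟨s, hs, _⟩
    · exact h
    · simp at hs
  | s0 :: fr, acc, h => by
    rw [stepAcc_cons]
    rcases h with h | ⟨s, hs, hg⟩
    · exact stepAcc_complete L k fr _ (Or.inl (pruneAcc_complete L k _ acc (Or.inl h)))
    · rcases List.mem_cons.mp hs with rfl | hsl
      · exact stepAcc_complete L k fr _ (Or.inl (pruneAcc_complete L k _ acc (Or.inr hg)))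
      · exact stepAcc_complete L k fr _ (Or.inr ⟨s, hsl, hg⟩)

/-- level-by-level search; `true` if some state survives all `k` levels -/
def bfs2 (L : ℕ) : ℕ → List (List ℕ) → Bool
  | 0, frontier => frontier.any (fun s => s.isEmpty)
  | k + 1, frontier => bfs2 L k (stepAcc L (k + 1) frontier [])

theorem bfs2_complete (L : ℕ) : ∀ (k : ℕ) (frontier : List (List ℕ)), Good L k frontier →
    bfs2 L k frontier = true
  | 0, frontier, h => by
    obtain ⟨s, hs, _, hlen⟩ := h
    have : s = [] := List.length_eq_zero_iff.mp (by omega)
    subst this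
    unfold bfs2
    rw [List.any_eq_true]
    exact ⟨[], hs, rfl⟩
  | k + 1, frontier, h => by
    obtain ⟨s, hs, hsp, hlen⟩ := h
    unfold bfs2
    apply bfs2_complete L k
    apply stepAcc_complete
    exact Or.inr ⟨s, hs, expand_complete L k s hsp hlen⟩

/-- If `bfs2` fails on a rearrangement of the `3 (T+1)` smallest items, then at most `T`
disjoint triples of items fit. -/
theorem TBound_of_bfs2 (L : ℕ) (l : List ℕ) (hs : l.Pairwise (fun x y => x ≤ y)) (T : ℕ)
    (l' : List ℕ) (hperm : l'.Perm (l.take (3 * (T + 1))))
    (hsearch : bfs2 L (T + 1) [l'] = false) : TBound L (l : Multiset ℕ) T := by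
  intro M hM hsp
  by_contra hcon
  obtain ⟨k, hk, _⟩ := hsp.card_sum
  have hj : 3 * (T + 1) ≤ Multiset.card M := by omega
  obtain ⟨M1, hM1, hsp1, hc1⟩ := hsp.sub (T + 1) hj
  have hrel := take_rel l hs (3 * (T + 1)) M1 (le_trans hM1 hM) hc1
  have hsp2 := hsp1.mono_rel hrel
  have hlen : l'.length = 3 * (T + 1) := by
    have h1 : Multiset.card M1 ≤ Multiset.card (l : Multiset ℕ) :=
      Multiset.card_le_card (le_trans hM1 hM)
    simp only [Multiset.coe_card] at h1
    rw [hperm.length_eq, List.length_take]
    omega
  have hsp3 : Splits L ((l' : List ℕ) : Multiset ℕ) := by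
    rw [Multiset.coe_eq_coe.mpr hperm]
    exact hsp2
  have := bfs2_complete L (T + 1) [l'] ⟨l', List.mem_singleton.mpr rfl, hsp3, hlen⟩
  rw [hsearch] at this
  exact Bool.false_ne_true this

end Vale.Agent.Lib.P302N
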