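import Vale.Agent.Lib.P302N.Chain
import Vale.Agent.Lib.P302N.Frontier2

/-!
# Chain certificates checked with the accumulator form of the breadth-first search
-/

namespace Vale.Agent.Lib.P302N

open Vale.Agent.Lib.P302T

/-- Boolean check of one level on top of the items `X` with at most `tX` disjoint triples;
the same as `levelOK`, with `bfs2` in place of `search2`. -/
def levelOK3 (L w : ℕ) (X : List ℕ) (tX : ℕ) (l : Level) : Bool :=
  X.all (fun x => decide (l.xmin ≤ x)) &&
  (decide (X.length ≤ 3 * tX + l.u) &&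
  (l.Y.all (fun y => decide (y + 2 * l.xmin ≤ L → y + 2 * w ≤ L)) &&
  (l.Y.all (fun y1 => l.Y.all (fun y2 => decide (y1 + y2 + l.xmin ≤ L → y1 + y2 + w ≤ L))) &&
  (decide (l.lY.Pairwise (fun x y => x ≤ y)) &&
  (decide (l.lY.Perm (l.Y ++ List.replicate l.u w)) &&
  (decide (l.sY.Perm (l.lY.take (3 * (l.TY + 1)))) &&
  ((!(bfs2 L (l.TY + 1) [l.sY])) &&
  decide ((l.Y.filter (fun y => decide (3 * y ≤ L))).length ≤ l.TY + 1))))))))

theorem level_bound3 (L w : ℕ) (hw : L < 3 * w) (X : List ℕ) (tX : ℕ) (l : Level)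
    (hX : TBound L (X : Multiset ℕ) tX) (hok : levelOK3 L w X tX l = true) :
    TBound L ((X ++ l.Y : List ℕ) : Multiset ℕ) (tX + l.TY) := by
  simp only [levelOK3, Bool.and_eq_true, List.all_eq_true, decide_eq_true_eq,
    Bool.not_eq_true'] at hok
  obtain ⟨hxmin, hu, hc1, hc2, hsorted, hperm, hperm2, hsearch, hneg⟩ := hok
  rw [← Multiset.coe_add]
  refine nest L w l.xmin (X : Multiset ℕ) (l.Y : Multiset ℕ) tX l.TY l.u hw ?_ ?_ ?_ hX ?_ ?_ ?_
  · intro x hx
    exact hxmin x (Multiset.mem_coe.mp hx)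
  · intro y hy
    exact hc1 y (Multiset.mem_coe.mp hy)
  · intro y1 hy1 y2 hy2
    exact hc2 y1 (Multiset.mem_coe.mp hy1) y2 (Multiset.mem_coe.mp hy2)
  · simpa using hu
  · have h1 := TBound_of_bfs2 L l.lY hsorted l.TY l.sY hperm2 hsearch
    have h2 : (l.lY : Multiset ℕ) = (l.Y : Multiset ℕ) + Multiset.replicate l.u w := by
      rw [← Multiset.coe_replicate, Multiset.coe_add]
      exact Multiset.coe_eq_coe.mpr hperm
    rw [← h2]
    exact h1
  · have h3 : Multiset.filter (fun y => 3 * y ≤ L) (l.Y : Multiset ℕ)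
        = ((l.Y.filter (fun y => decide (3 * y ≤ L)) : List ℕ) : Multiset ℕ) := by
      rw [Multiset.filter_coe]
    rw [h3, Multiset.coe_card]
    exact hneg

end Vale.Agent.Lib.P302N
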