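import Vale.Agent.Lib.P302N.Chain

/-!
# A faster check of a fractional solution of the configuration LP

`lpCheckB` does the same job as `lpCheck`, but the sizes are grouped into blocks: a block
lists distinct sizes together with a range of the certificate that already covers them (the
coverage by the whole certificate is at least as large).  All functions are written with the
recursor of `List` directly, which the kernel evaluates much faster than definitions by
pattern matching.
-/

namespace Vale.Agent.Lib.P302N

open Vale.Agent.Lib.P302T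

/-- number of occurrences of `v` (the same as `List.count`) -/
noncomputable def countR (v : ℕ) (l : List ℕ) : ℕ :=
  List.rec (motive := fun _ => ℕ) 0 (fun y _ ih => bif Nat.beq y v then ih + 1 else ih) l

theorem countR_eq (v : ℕ) : ∀ l : List ℕ, countR v l = l.count v
  | [] => rfl
  | y :: t => by
    have h : countR v (y :: t) = bif Nat.beq y v then countR v t + 1 else countR v t := rfl
    rw [h, countR_eq v t]
    by_cases hy : y = v
    · subst hy
      simp
    · have hf : Nat.beq y v = false := by
        rw [← Bool.not_eq_true, Nat.beq_eq]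
        exact hy
      rw [hf, List.count_cons_of_ne hy]
      rfl

/-- does `x` occur in `l`? -/
noncomputable def memR (x : ℕ) (l : List ℕ) : Bool :=
  List.rec (motive := fun _ => Bool) false (fun y _ ih => Nat.beq y x || ih) l

theorem memR_mem (x : ℕ) : ∀ l : List ℕ, memR x l = true → x ∈ l
  | [], h => by
    have : memR x [] = false := rfl
    rw [this] at h
    exact (Bool.false_ne_true h).elim
  | y :: t, h => by
    have h1 : memR x (y :: t) = (Nat.beq y x || memR x t) := rfl
    rw [h1, Bool.or_eq_true, Nat.beq_eq] at h
    rcases h with h | h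
    · rw [h]
      exact List.mem_cons_self
    · exact List.mem_cons_of_mem _ (memR_mem x t h)

/-- the sum of a list (the same as `List.sum`) -/
noncomputable def sumR (l : List ℕ) : ℕ :=
  List.rec (motive := fun _ => ℕ) 0 (fun y _ ih => y + ih) l

theorem sumR_eq : ∀ l : List ℕ, sumR l = l.sum
  | [] => rfl
  | y :: t => by
    have h : sumR (y :: t) = y + sumR t := rfl
    rw [h, sumR_eq t, List.sum_cons]

/-- how often the certificate covers the size `v` -/
noncomputable def coverR (v : ℕ) (cert : List (List ℕ × ℕ)) : ℕ :=
  List.rec (motive := fun _ => ℕ) 0 (fun p _ ih => countR v p.1 * p.2 + ih) cert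

theorem coverR_eq (v : ℕ) : ∀ cert : List (List ℕ × ℕ),
    coverR v cert = (cert.map (fun p => p.1.count v * p.2)).sum
  | [] => rfl
  | p :: t => by
    have h : coverR v (p :: t) = countR v p.1 * p.2 + coverR v t := rfl
    rw [h, coverR_eq v t, countR_eq, List.map_cons, List.sum_cons]

/-- every element of `t` occurs in `vals` -/
noncomputable def allMemR (vals : List ℕ) (t : List ℕ) : Bool :=
  List.rec (motive := fun _ => Bool) true (fun x _ ih => memR x vals && ih) t

theorem allMemR_mem (vals : List ℕ) : ∀ t : List ℕ, allMemR vals t = true → ∀ x ∈ t, x ∈ vals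
  | [], _, x, hx => by simp at hx
  | y :: t, h, x, hx => by
    have h1 : allMemR vals (y :: t) = (memR y vals && allMemR vals t) := rfl
    rw [h1, Bool.and_eq_true] at h
    rcases List.mem_cons.mp hx with rfl | hx
    · exact memR_mem _ _ h.1
    · exact allMemR_mem vals t h.2 x hx

/-- every configuration fits into the capacity and consists of sizes of `vals` -/
noncomputable def cfgOKR (L : ℕ) (vals : List ℕ) (cert : List (List ℕ × ℕ)) : Bool :=
  List.rec (motive := fun _ => Bool) true
    (fun p _ ih => Nat.ble (sumR p.1) L && (allMemR vals p.1 && ih)) cert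

theorem cfgOKR_spec (L : ℕ) (vals : List ℕ) : ∀ cert : List (List ℕ × ℕ),
    cfgOKR L vals cert = true → ∀ p ∈ cert, p.1.sum ≤ L ∧ ∀ x ∈ p.1, x ∈ vals
  | [], _, p, hp => by simp at hp
  | q :: t, h, p, hp => by
    have h1 : cfgOKR L vals (q :: t) =
        (Nat.ble (sumR q.1) L && (allMemR vals q.1 && cfgOKR L vals t)) := rfl
    rw [h1, Bool.and_eq_true, Bool.and_eq_true, Nat.ble_eq, sumR_eq] at h
    rcases List.mem_cons.mp hp with rfl | hp
    · exact ⟨h.1, allMemR_mem vals _ h.2.1⟩
    · exact cfgOKR_spec L vals t h.2.2 p hp

/-- the sizes `vals` occur in `s` and are covered by the part `sub` of the certificate -/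
noncomputable def covOKR (D : ℕ) (s : List ℕ) (sub : List (List ℕ × ℕ)) (vals : List ℕ) : Bool :=
  List.rec (motive := fun _ => Bool) true
    (fun v _ ih => Nat.blt 0 (countR v s) && (Nat.ble (countR v s * D) (coverR v sub) && ih)) vals

theorem covOKR_spec (D : ℕ) (s : List ℕ) (sub : List (List ℕ × ℕ)) : ∀ vals : List ℕ,
    covOKR D s sub vals = true → ∀ v ∈ vals,
      0 < s.count v ∧ s.count v * D ≤ (sub.map (fun p => p.1.count v * p.2)).sum
  | [], _, v, hv => by simp at hv
  | w :: t, h, v, hv => by
    have h1 : covOKR D s sub (w :: t) = (Nat.blt 0 (countR w s) &&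
        (Nat.ble (countR w s * D) (coverR w sub) && covOKR D s sub t)) := rfl
    rw [h1, Bool.and_eq_true, Bool.and_eq_true, Nat.blt_eq, Nat.ble_eq, countR_eq,
      coverR_eq] at h
    rcases List.mem_cons.mp hv with rfl | hv
    · exact ⟨h.1, h.2.1⟩
    · exact covOKR_spec D s sub t h.2.2 v hv

/-- all blocks are covered; a block is a list of sizes with a range (start, length) of the
certificate -/
noncomputable def blocksOKR (D : ℕ) (s : List ℕ) (cert : List (List ℕ × ℕ))
    (blocks : List (List ℕ × ℕ × ℕ)) : Bool :=
  List.rec (motive := fun _ => Bool) true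
    (fun b _ ih => covOKR D s ((cert.drop b.2.1).take b.2.2) b.1 && ih) blocks

/-- the sizes of all blocks -/
noncomputable def blockVals (blocks : List (List ℕ × ℕ × ℕ)) : List ℕ :=
  List.rec (motive := fun _ => List ℕ) [] (fun b _ ih => b.1 ++ ih) blocks

theorem cover_mono (v : ℕ) (cert : List (List ℕ × ℕ)) (a b : ℕ) :
    (((cert.drop a).take b).map (fun p => p.1.count v * p.2)).sum
      ≤ (cert.map (fun p => p.1.count v * p.2)).sum := by
  have hsub : ((cert.drop a).take b).Sublist cert :=
    (List.take_sublist _ _).trans (List.drop_sublist _ _)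
  exact (hsub.map _).sum_le_sum (fun _ _ => Nat.zero_le _)

theorem blocksOKR_spec (D : ℕ) (s : List ℕ) (cert : List (List ℕ × ℕ)) :
    ∀ blocks : List (List ℕ × ℕ × ℕ), blocksOKR D s cert blocks = true →
      ∀ v ∈ blockVals blocks,
        0 < s.count v ∧ s.count v * D ≤ (cert.map (fun p => p.1.count v * p.2)).sum
  | [], _, v, hv => by
    have : blockVals [] = [] := rfl
    rw [this] at hv
    simp at hv
  | b :: t, h, v, hv => by
    have h1 : blocksOKR D s cert (b :: t) =
        (covOKR D s ((cert.drop b.2.1).take b.2.2) b.1 && blocksOKR D s cert t) := rfl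
    have h2 : blockVals (b :: t) = b.1 ++ blockVals t := rfl
    rw [h1, Bool.and_eq_true] at h
    rw [h2, List.mem_append] at hv
    rcases hv with hv | hv
    · obtain ⟨hpos, hcov⟩ := covOKR_spec D s _ b.1 h.1 v hv
      exact ⟨hpos, le_trans hcov (cover_mono v cert _ _)⟩
    · exact blocksOKR_spec D s cert t h.2 v hv

/-- Boolean check of a fractional solution, with the sizes grouped into blocks -/
noncomputable def lpCheckB (L D : ℕ) (s : List ℕ) (cert : List (List ℕ × ℕ))
    (blocks : List (List ℕ × ℕ × ℕ)) : Bool :=
  cfgOKR L (blockVals blocks) cert &&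
    (allMemR (blockVals blocks) s && blocksOKR D s cert blocks)

theorem lpCheckB_sound (L D : ℕ) (s : List ℕ) (cert : List (List ℕ × ℕ))
    (blocks : List (List ℕ × ℕ × ℕ)) (h : lpCheckB L D s cert blocks = true) :
    lpCheck L D s cert = true := by
  unfold lpCheckB at h
  rw [Bool.and_eq_true, Bool.and_eq_true] at h
  obtain ⟨hcfg, hmem, hblocks⟩ := h
  have hspec := blocksOKR_spec D s cert blocks hblocks
  simp only [lpCheck, Bool.and_eq_true, List.all_eq_true, decide_eq_true_eq]
  constructor
  · intro p hp
    obtain ⟨hsum, hin⟩ := cfgOKR_spec L _ cert hcfg p hp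
    refine ⟨hsum, ?_⟩
    intro x hx
    exact List.count_pos_iff.mp (hspec x (hin x hx)).1
  · intro v hv
    exact (hspec v (allMemR_mem _ s hmem v hv)).2

end Vale.Agent.Lib.P302N
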