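import Vale.Agent.Lib.P302T.Cert

/-!
# Nesting lemma for disjoint fitting triples

`TBound L l T` says that at most `T` pairwise disjoint triples of items of `l` fit into a bin of
capacity `L`.  The nesting lemma bounds the number of triples of a two-scale instance `X + Y`:
if every fitting triple that mixes items of `X` and `Y` stays fitting when its `X`-items are
replaced by a wildcard size `w` with `3 w > L`, then the triples of `X + Y` are controlled by
the triples of `X` and by the triples of `Y` together with `u` wildcards, where `u` is the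
number of items of `X` left over by a maximum family of triples.
-/

namespace Vale.Agent.Lib.P302N

open Vale.Agent.Lib.P302T

/-- every sub-multiset of `l` that splits into fitting triples has at most `3 T` elements -/
def TBound (L : ℕ) (l : Multiset ℕ) (T : ℕ) : Prop :=
  ∀ M : Multiset ℕ, M ≤ l → Splits L M → Multiset.card M ≤ 3 * T

theorem TBound_of_search (L : ℕ) (l : List ℕ) (hs : l.Pairwise (fun x y => x ≤ y)) (T : ℕ)
    (hsearch : search L (T + 1) (l.take (3 * (T + 1))).reverse = false) :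
    TBound L (l : Multiset ℕ) T :=
  card_le_of_search L l hs T hsearch

/-- invariant of the decomposition of a family of triples of `A + B` -/
def Inv (L w : ℕ) (A B : Multiset ℕ) : Prop :=
  ∃ (P : Multiset ℕ) (s q : ℕ), P ≤ A ∧ Splits L P ∧
    Multiset.card A = Multiset.card P + s ∧
    Splits L (B + Multiset.replicate s w) ∧ Multiset.card B + s = 3 * q ∧
    q ≤ Multiset.card (B.filter (fun y => 3 * y ≤ L))

theorem filter_card_succ_le (L : ℕ) (B B' : Multiset ℕ) (y : ℕ) (hy : 3 * y ≤ L)
    (hle : y ::ₘ B ≤ B') :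
    Multiset.card (B.filter (fun y => 3 * y ≤ L)) + 1
      ≤ Multiset.card (B'.filter (fun y => 3 * y ≤ L)) := by
  have h1 : Multiset.card ((y ::ₘ B).filter (fun y => 3 * y ≤ L))
      = Multiset.card (B.filter (fun y => 3 * y ≤ L)) + 1 := by
    rw [Multiset.filter_cons_of_pos (p := fun y => 3 * y ≤ L) (a := y) B hy, Multiset.card_cons]
  rw [← h1]
  exact Multiset.card_le_card (Multiset.filter_le_filter _ hle)

theorem inv_AAA {L w : ℕ} {A B : Multiset ℕ} (h : Inv L w A B) (a b c : ℕ)
    (hfit : a + b + c ≤ L) : Inv L w (a ::ₘ b ::ₘ c ::ₘ A) B := by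
  obtain ⟨P, s, q, hPA, hP, hcard, hB, hq, hneg⟩ := h
  refine ⟨a ::ₘ b ::ₘ c ::ₘ P, s, q, ?_, Splits.cons a b c P hfit hP, ?_, hB, hq, hneg⟩
  · exact Multiset.cons_le_cons a (Multiset.cons_le_cons b (Multiset.cons_le_cons c hPA))
  · simp only [Multiset.card_cons]; omega

theorem inv_BBB {L w : ℕ} {A B : Multiset ℕ} (h : Inv L w A B) (a b c : ℕ)
    (hfit : a + b + c ≤ L) : Inv L w A (a ::ₘ b ::ₘ c ::ₘ B) := by
  obtain ⟨P, s, q, hPA, hP, hcard, hB, hq, hneg⟩ := h
  refine ⟨P, s, q + 1, hPA, hP, hcard, ?_, ?_, ?_⟩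
  · rw [Multiset.cons_add, Multiset.cons_add, Multiset.cons_add]
    exact Splits.cons a b c _ hfit hB
  · simp only [Multiset.card_cons]; omega
  · have hB1 : B ≤ c ::ₘ B := Multiset.le_cons_self B c
    have hB2 : B ≤ b ::ₘ c ::ₘ B := le_trans hB1 (Multiset.le_cons_self _ b)
    have key : Multiset.card (B.filter (fun y => 3 * y ≤ L)) + 1
        ≤ Multiset.card ((a ::ₘ b ::ₘ c ::ₘ B).filter (fun y => 3 * y ≤ L)) := by
      by_cases ha : 3 * a ≤ L
      · exact filter_card_succ_le L B _ a ha (Multiset.cons_le_cons a hB2)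
      by_cases hb : 3 * b ≤ L
      · exact filter_card_succ_le L B _ b hb
          (le_trans (Multiset.cons_le_cons b hB1) (Multiset.le_cons_self _ a))
      · have hc : 3 * c ≤ L := by omega
        exact filter_card_succ_le L B _ c hc
          (le_trans (Multiset.le_cons_self _ b) (Multiset.le_cons_self _ a))
    omega

theorem inv_ABB {L w : ℕ} {A B : Multiset ℕ} (h : Inv L w A B) (x y1 y2 : ℕ)
    (hfit : y1 + y2 + w ≤ L) (hw : L < 3 * w) : Inv L w (x ::ₘ A) (y1 ::ₘ y2 ::ₘ B) := by
  obtain ⟨P, s, q, hPA, hP, hcard, hB, hq, hneg⟩ := h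
  refine ⟨P, s + 1, q + 1, le_trans hPA (Multiset.le_cons_self A x), hP, ?_, ?_, ?_, ?_⟩
  · simp only [Multiset.card_cons]; omega
  · rw [Multiset.replicate_succ, Multiset.cons_add, Multiset.cons_add, Multiset.add_cons]
    exact Splits.cons y1 y2 w _ hfit hB
  · simp only [Multiset.card_cons]; omega
  · have key : Multiset.card (B.filter (fun y => 3 * y ≤ L)) + 1
        ≤ Multiset.card ((y1 ::ₘ y2 ::ₘ B).filter (fun y => 3 * y ≤ L)) := by
      by_cases h1 : 3 * y1 ≤ L
      · exact filter_card_succ_le L B _ y1 h1 (Multiset.cons_le_cons y1 (Multiset.le_cons_self B y2))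
      · have h2 : 3 * y2 ≤ L := by omega
        exact filter_card_succ_le L B _ y2 h2 (Multiset.le_cons_self _ y1)
    omega

theorem inv_AAB {L w : ℕ} {A B : Multiset ℕ} (h : Inv L w A B) (x1 x2 y : ℕ)
    (hfit : y + w + w ≤ L) (hw : L < 3 * w) : Inv L w (x1 ::ₘ x2 ::ₘ A) (y ::ₘ B) := by
  obtain ⟨P, s, q, hPA, hP, hcard, hB, hq, hneg⟩ := h
  refine ⟨P, s + 2, q + 1,
    le_trans hPA (le_trans (Multiset.le_cons_self A x2) (Multiset.le_cons_self _ x1)), hP,
    ?_, ?_, ?_, ?_⟩
  · simp only [Multiset.card_cons]; omega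
  · rw [Multiset.replicate_succ, Multiset.replicate_succ, Multiset.cons_add, Multiset.add_cons,
      Multiset.add_cons]
    exact Splits.cons y w w _ hfit hB
  · simp only [Multiset.card_cons]; omega
  · have hy : 3 * y ≤ L := by omega
    have key := filter_card_succ_le L B (y ::ₘ B) y hy le_rfl
    omega

theorem peel {x : ℕ} {S A B : Multiset ℕ} (h : x ::ₘ S = A + B) :
    (∃ A', A = x ::ₘ A' ∧ S = A' + B) ∨ (∃ B', B = x ::ₘ B' ∧ S = A + B') := by
  have hx : x ∈ A + B := by rw [← h]; exact Multiset.mem_cons_self x S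
  rcases Multiset.mem_add.mp hx with hA | hB
  · left
    refine ⟨A.erase x, (Multiset.cons_erase hA).symm, ?_⟩
    have : x ::ₘ S = x ::ₘ (A.erase x + B) := by
      rw [← Multiset.cons_add, Multiset.cons_erase hA]; exact h
    exact (Multiset.cons_inj_right x).mp this
  · right
    refine ⟨B.erase x, (Multiset.cons_erase hB).symm, ?_⟩
    have : x ::ₘ S = x ::ₘ (A + B.erase x) := by
      rw [← Multiset.add_cons, Multiset.cons_erase hB]; exact h
    exact (Multiset.cons_inj_right x).mp this

theorem inv_of_splits (L w xmin : ℕ) (hw : L < 3 * w) (X Y : Multiset ℕ)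
    (hxmin : ∀ x ∈ X, xmin ≤ x)
    (c1 : ∀ y ∈ Y, y + 2 * xmin ≤ L → y + 2 * w ≤ L)
    (c2 : ∀ y1 ∈ Y, ∀ y2 ∈ Y, y1 + y2 + xmin ≤ L → y1 + y2 + w ≤ L)
    {M : Multiset ℕ} (hM : Splits L M) :
    ∀ A B : Multiset ℕ, M = A + B → A ≤ X → B ≤ Y → Inv L w A B := by
  induction hM with
  | nil =>
    intro A B hAB _ _
    have h0 : A + B = 0 := hAB.symm
    have hA0 : A = 0 := by
      apply Multiset.eq_zero_of_forall_notMem
      intro a ha
      have : a ∈ A + B := Multiset.mem_add.mpr (Or.inl ha)
      rw [h0] at this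
      exact Multiset.notMem_zero a this
    have hB0 : B = 0 := by
      apply Multiset.eq_zero_of_forall_notMem
      intro a ha
      have : a ∈ A + B := Multiset.mem_add.mpr (Or.inr ha)
      rw [h0] at this
      exact Multiset.notMem_zero a this
    subst hA0 hB0
    refine ⟨0, 0, 0, le_rfl, Splits.nil, by simp, ?_, by simp, by simp⟩
    simpa using Splits.nil
  | cons a b c S hfit _ ih =>
    intro A B hAB hA hB
    rcases peel hAB with ⟨A1, rfl, h1⟩ | ⟨B1, rfl, h1⟩
    · have haX : xmin ≤ a := hxmin a (Multiset.mem_of_le hA (Multiset.mem_cons_self a A1))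
      have hA1 : A1 ≤ X := le_trans (Multiset.le_cons_self A1 a) hA
      rcases peel h1 with ⟨A2, rfl, h2⟩ | ⟨B1, rfl, h2⟩
      · have hbX : xmin ≤ b := hxmin b (Multiset.mem_of_le hA1 (Multiset.mem_cons_self b A2))
        have hA2 : A2 ≤ X := le_trans (Multiset.le_cons_self A2 b) hA1
        rcases peel h2 with ⟨A3, rfl, h3⟩ | ⟨B1, rfl, h3⟩
        · have hA3 : A3 ≤ X := le_trans (Multiset.le_cons_self A3 c) hA2
          exact inv_AAA (ih A3 B h3 hA3 hB) a b c hfit
        · have hcY : c ∈ Y := Multiset.mem_of_le hB (Multiset.mem_cons_self c B1)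
          have hB1 : B1 ≤ Y := le_trans (Multiset.le_cons_self B1 c) hB
          exact inv_AAB (ih A2 B1 h3 hA2 hB1) a b c
            (by have := c1 c hcY (by omega); omega) hw
      · have hbY : b ∈ Y := Multiset.mem_of_le hB (Multiset.mem_cons_self b B1)
        have hB1 : B1 ≤ Y := le_trans (Multiset.le_cons_self B1 b) hB
        rcases peel h2 with ⟨A2, rfl, h3⟩ | ⟨B2, rfl, h3⟩
        · have hcX : xmin ≤ c := hxmin c (Multiset.mem_of_le hA1 (Multiset.mem_cons_self c A2))
          have hA2 : A2 ≤ X := le_trans (Multiset.le_cons_self A2 c) hA1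
          exact inv_AAB (ih A2 B1 h3 hA2 hB1) a c b
            (by have := c1 b hbY (by omega); omega) hw
        · have hcY : c ∈ Y := Multiset.mem_of_le hB1 (Multiset.mem_cons_self c B2)
          have hB2 : B2 ≤ Y := le_trans (Multiset.le_cons_self B2 c) hB1
          exact inv_ABB (ih A1 B2 h3 hA1 hB2) a b c
            (by have := c2 b hbY c hcY (by omega); omega) hw
    · have haY : a ∈ Y := Multiset.mem_of_le hB (Multiset.mem_cons_self a B1)
      have hB1 : B1 ≤ Y := le_trans (Multiset.le_cons_self B1 a) hB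
      rcases peel h1 with ⟨A1, rfl, h2⟩ | ⟨B2, rfl, h2⟩
      · have hbX : xmin ≤ b := hxmin b (Multiset.mem_of_le hA (Multiset.mem_cons_self b A1))
        have hA1 : A1 ≤ X := le_trans (Multiset.le_cons_self A1 b) hA
        rcases peel h2 with ⟨A2, rfl, h3⟩ | ⟨B2, rfl, h3⟩
        · have hcX : xmin ≤ c := hxmin c (Multiset.mem_of_le hA1 (Multiset.mem_cons_self c A2))
          have hA2 : A2 ≤ X := le_trans (Multiset.le_cons_self A2 c) hA1
          exact inv_AAB (ih A2 B1 h3 hA2 hB1) b c a
            (by have := c1 a haY (by omega); omega) hw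
        · have hcY : c ∈ Y := Multiset.mem_of_le hB1 (Multiset.mem_cons_self c B2)
          have hB2 : B2 ≤ Y := le_trans (Multiset.le_cons_self B2 c) hB1
          exact inv_ABB (ih A1 B2 h3 hA1 hB2) b a c
            (by have := c2 a haY c hcY (by omega); omega) hw
      · have hbY : b ∈ Y := Multiset.mem_of_le hB1 (Multiset.mem_cons_self b B2)
        have hB2 : B2 ≤ Y := le_trans (Multiset.le_cons_self B2 b) hB1
        rcases peel h2 with ⟨A1, rfl, h3⟩ | ⟨B3, rfl, h3⟩
        · have hcX : xmin ≤ c := hxmin c (Multiset.mem_of_le hA (Multiset.mem_cons_self c A1))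
          have hA1 : A1 ≤ X := le_trans (Multiset.le_cons_self A1 c) hA
          exact inv_ABB (ih A1 B2 h3 hA1 hB2) c a b
            (by have := c2 a haY b hbY (by omega); omega) hw
        · have hB3 : B3 ≤ Y := le_trans (Multiset.le_cons_self B3 c) hB2
          exact inv_BBB (ih A B3 h3 hA hB3) a b c hfit

/-- **Nesting lemma.** -/
theorem nest (L w xmin : ℕ) (X Y : Multiset ℕ) (tX TY u : ℕ) (hw : L < 3 * w)
    (hxmin : ∀ x ∈ X, xmin ≤ x)
    (c1 : ∀ y ∈ Y, y + 2 * xmin ≤ L → y + 2 * w ≤ L)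
    (c2 : ∀ y1 ∈ Y, ∀ y2 ∈ Y, y1 + y2 + xmin ≤ L → y1 + y2 + w ≤ L)
    (hX : TBound L X tX) (hu : Multiset.card X ≤ 3 * tX + u)
    (hY : TBound L (Y + Multiset.replicate u w) TY)
    (hneg : Multiset.card (Y.filter (fun y => 3 * y ≤ L)) ≤ TY + 1) :
    TBound L (X + Y) (tX + TY) := by
  intro M hM hsp
  set B := M - X with hBdef
  set A := M - B with hAdef
  have hB : B ≤ Y := by
    rw [hBdef, tsub_le_iff_right, add_comm]; exact hM
  have hBM : B ≤ M := tsub_le_self
  have hA : A ≤ X := tsub_tsub_le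
  have hAB : M = A + B := (tsub_add_cancel_of_le hBM).symm
  obtain ⟨P, s, q, hPA, hP, hcard, hBs, hq, hnegB⟩ :=
    inv_of_splits L w xmin hw X Y hxmin c1 c2 hsp A B hAB hA hB
  obtain ⟨p, hp, _⟩ := hP.card_sum
  have h1 : Multiset.card P ≤ 3 * tX := hX P (le_trans hPA hA) hP
  have h2 : Multiset.card A ≤ Multiset.card X := Multiset.card_le_card hA
  have h3 : Multiset.card M = Multiset.card A + Multiset.card B := by
    rw [hAB, Multiset.card_add]
  by_cases hsu : s ≤ u
  · have hle : B + Multiset.replicate s w ≤ Y + Multiset.replicate u w :=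
      add_le_add hB (Multiset.replicate_mono w hsu)
    have h4 := hY _ hle hBs
    rw [Multiset.card_add, Multiset.card_replicate] at h4
    omega
  · have h5 : Multiset.card (B.filter (fun y => 3 * y ≤ L))
        ≤ Multiset.card (Y.filter (fun y => 3 * y ≤ L)) :=
      Multiset.card_le_card (Multiset.filter_le_filter _ hB)
    omega

end Vale.Agent.Lib.P302N
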