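import Vale.Agent.Lib.P302N.Chain2

/-!
# A faster search for levels in which every triple holds exactly one small item

Call an item `y` small when `3 * y ≤ L` and large otherwise.  A fitting triple holds at least
one small item.  So when a list consists of `k` small items and `2 * k` large ones, a splitting
into `k` fitting triples gives every small item `n` a pair of large items of sum at most
`L - n`.  `pbfs L negs [pos]` searches for such an assignment level by level: the small items
`negs` are treated in the given order, a state is the list of the large items not yet used,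
and a state is dropped when a kept state of the same level is elementwise at most as large.

All functions are written with the recursors of `List` and `Option` directly, which the kernel
evaluates much faster than definitions by pattern matching.
-/

namespace Vale.Agent.Lib.P302N

open Vale.Agent.Lib.P302T

/-- remove the first occurrence of `b` (the same as `List.erase`) -/
noncomputable def eraseR (b : ℕ) (l : List ℕ) : List ℕ :=
  List.rec (motive := fun _ => List ℕ) [] (fun y t ih => bif Nat.beq y b then t else y :: ih) l

theorem eraseR_eq (b : ℕ) : ∀ l : List ℕ, eraseR b l = l.erase b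
  | [] => rfl
  | y :: t => by
    have h : eraseR b (y :: t) = bif Nat.beq y b then t else y :: eraseR b t := rfl
    rw [h, eraseR_eq b t]
    by_cases hy : y = b
    · subst hy
      simp
    · have hf : Nat.beq y b = false := by
        rw [← Bool.not_eq_true, Nat.beq_eq]
        exact hy
      rw [hf, List.erase_cons_tail (by simpa using hy)]
      rfl

/-- the largest element that is at most `bound` (the same as `pickMax`) -/
noncomputable def pickR (bound : ℕ) (l : List ℕ) : Option ℕ :=
  List.rec (motive := fun _ => Option ℕ) none (fun y _ ih =>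
    Option.rec (motive := fun _ => Option ℕ) (bif Nat.ble y bound then some y else none)
      (fun z => bif Nat.ble y bound && Nat.blt z y then some y else some z) ih) l

theorem pickR_eq (bound : ℕ) : ∀ l : List ℕ, pickR bound l = pickMax bound l
  | [] => rfl
  | y :: t => by
    have h : pickR bound (y :: t) = Option.rec (motive := fun _ => Option ℕ)
        (bif Nat.ble y bound then some y else none)
        (fun z => bif Nat.ble y bound && Nat.blt z y then some y else some z)
        (pickR bound t) := rfl
    have h2 : pickMax bound (y :: t) = (match pickMax bound t with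
        | none => if y ≤ bound then some y else none
        | some z => if y ≤ bound ∧ z < y then some y else some z) := rfl
    rw [h, h2, pickR_eq bound t]
    cases pickMax bound t with
    | none =>
      show (bif Nat.ble y bound then some y else none) = if y ≤ bound then some y else none
      by_cases hy : y ≤ bound
      · have h1 : Nat.ble y bound = true := by rw [Nat.ble_eq]; exact hy
        rw [h1, if_pos hy]
        rfl
      · have h1 : Nat.ble y bound = false := by rw [← Bool.not_eq_true, Nat.ble_eq]; exact hy
        rw [h1, if_neg hy]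
        rfl
    | some z =>
      show (bif Nat.ble y bound && Nat.blt z y then some y else some z) =
        if y ≤ bound ∧ z < y then some y else some z
      by_cases hy : y ≤ bound ∧ z < y
      · have h1 : (Nat.ble y bound && Nat.blt z y) = true := by
          rw [Bool.and_eq_true, Nat.ble_eq, Nat.blt_eq]
          exact hy
        rw [h1, if_pos hy]
        rfl
      · have h1 : (Nat.ble y bound && Nat.blt z y) = false := by
          rw [← Bool.not_eq_true, Bool.and_eq_true, Nat.ble_eq, Nat.blt_eq]
          exact hy
        rw [h1, if_neg hy]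
        rfl

/-- the successor state for a candidate, put in front of `acc`: `l` is the state without the
candidate and `bound` is what the capacity leaves for its partner -/
noncomputable def succR (bound : ℕ) (l : List ℕ) (acc : List (List ℕ)) : List (List ℕ) :=
  Option.rec (motive := fun _ => List (List ℕ)) acc (fun a => eraseR a l :: acc) (pickR bound l)

theorem succR_none {bound : ℕ} {l : List ℕ} (acc : List (List ℕ)) (h : pickR bound l = none) :
    succR bound l acc = acc := by
  unfold succR
  rw [h]

theorem succR_some {bound : ℕ} {l : List ℕ} {a : ℕ} (acc : List (List ℕ))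
    (h : pickR bound l = some a) : succR bound l acc = eraseR a l :: acc := by
  unfold succR
  rw [h]

theorem succR_subset (bound : ℕ) (l : List ℕ) (acc : List (List ℕ)) :
    ∀ t ∈ acc, t ∈ succR bound l acc := by
  intro t ht
  cases h : pickR bound l with
  | none => rw [succR_none acc h]; exact ht
  | some a => rw [succR_some acc h]; exact List.mem_cons_of_mem _ ht

theorem succR_sub (bound : ℕ) (l : List ℕ) (acc : List (List ℕ)) :
    ∀ t ∈ succR bound l acc, t ∈ acc ∨ ∀ p ∈ t, p ∈ l := by
  intro t ht
  cases h : pickR bound l with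
  | none =>
    rw [succR_none acc h] at ht
    exact Or.inl ht
  | some a =>
    rw [succR_some acc h] at ht
    rcases List.mem_cons.mp ht with rfl | ht
    · right
      intro p hp
      rw [eraseR_eq] at hp
      exact List.mem_of_mem_erase hp
    · exact Or.inl ht

/-- all successor states of the state `s` for the capacity `c`, put in front of `acc`; the
candidates are the elements `b` of `l` with `b + b ≤ c` that differ from their predecessor -/
noncomputable def candsR (c : ℕ) (s : List ℕ) (acc : List (List ℕ)) (l : List ℕ) :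
    ℕ → List (List ℕ) :=
  List.rec (motive := fun _ => ℕ → List (List ℕ)) (fun _ => acc)
    (fun b _ ih prev =>
      bif Nat.beq b prev || Nat.blt c (b + b) then ih b
      else succR (c - b) (eraseR b s) (ih b)) l

theorem candsR_cons (c : ℕ) (s : List ℕ) (acc : List (List ℕ)) (b : ℕ) (t : List ℕ) (prev : ℕ) :
    candsR c s acc (b :: t) prev =
      bif Nat.beq b prev || Nat.blt c (b + b) then candsR c s acc t b
      else succR (c - b) (eraseR b s) (candsR c s acc t b) := rfl

theorem candsR_subset (c : ℕ) (s : List ℕ) (acc : List (List ℕ)) :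
    ∀ (l : List ℕ) (prev : ℕ), ∀ t ∈ acc, t ∈ candsR c s acc l prev
  | [], _, _, ht => ht
  | b :: l, prev, t, ht => by
    rw [candsR_cons]
    cases hcond : (Nat.beq b prev || Nat.blt c (b + b)) with
    | true => exact candsR_subset c s acc l b t ht
    | false => exact succR_subset _ _ _ t (candsR_subset c s acc l b t ht)

theorem candsR_sub (c : ℕ) (s : List ℕ) (acc : List (List ℕ)) :
    ∀ (l : List ℕ) (prev : ℕ), ∀ t ∈ candsR c s acc l prev, t ∈ acc ∨ ∀ p ∈ t, p ∈ s
  | [], _, _, ht => Or.inl ht
  | b :: l, prev, t, ht => by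
    rw [candsR_cons] at ht
    cases hcond : (Nat.beq b prev || Nat.blt c (b + b)) with
    | true =>
      rw [hcond] at ht
      exact candsR_sub c s acc l b t ht
    | false =>
      rw [hcond] at ht
      rcases succR_sub _ _ _ t ht with h | h
      · exact candsR_sub c s acc l b t h
      · right
        intro p hp
        have := h p hp
        rw [eraseR_eq] at this
        exact List.mem_of_mem_erase this

theorem candsR_mem (c : ℕ) (s : List ℕ) (acc : List (List ℕ)) {b a : ℕ} (hbc : b + b ≤ c)
    (hpick : pickR (c - b) (eraseR b s) = some a) :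
    ∀ (l : List ℕ) (prev : ℕ), b ∈ l → b ≠ prev →
      eraseR a (eraseR b s) ∈ candsR c s acc l prev
  | [], _, hb, _ => by simp at hb
  | y :: l, prev, hb, hne => by
    rw [candsR_cons]
    by_cases hy : y = b
    · subst hy
      have h1 : (Nat.beq y prev || Nat.blt c (y + y)) = false := by
        rw [← Bool.not_eq_true, Bool.or_eq_true, Nat.beq_eq, Nat.blt_eq]
        omega
      rw [h1, cond_false, succR_some _ hpick]
      exact List.mem_cons_self
    · have hb' : b ∈ l := by
        rcases List.mem_cons.mp hb with h | h
        · exact (hy h.symm).elim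
        · exact h
      have ih := candsR_mem c s acc hbc hpick l y hb' (Ne.symm hy)
      cases hcond : (Nat.beq y prev || Nat.blt c (y + y)) with
      | true => exact ih
      | false => exact succR_subset _ _ _ _ ih

/-- all successor states of all states of the frontier -/
noncomputable def flatR (c : ℕ) (frontier : List (List ℕ)) : List (List ℕ) :=
  List.rec (motive := fun _ => List (List ℕ)) [] (fun s _ ih => candsR c s ih s (c + 1)) frontier

theorem flatR_cons (c : ℕ) (s : List ℕ) (fr : List (List ℕ)) :
    flatR c (s :: fr) = candsR c s (flatR c fr) s (c + 1) := rfl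

theorem flatR_mem (c : ℕ) {s s' : List ℕ} (h : ∀ acc, s' ∈ candsR c s acc s (c + 1)) :
    ∀ fr : List (List ℕ), s ∈ fr → s' ∈ flatR c fr
  | [], hs => by simp at hs
  | s0 :: fr, hs => by
    rw [flatR_cons]
    rcases List.mem_cons.mp hs with rfl | hs
    · exact h _
    · exact candsR_subset _ _ _ _ _ _ (flatR_mem c h fr hs)

theorem flatR_sub (c : ℕ) : ∀ (fr : List (List ℕ)), ∀ t ∈ flatR c fr, ∃ s ∈ fr, ∀ p ∈ t, p ∈ s
  | [], t, ht => by
    have : flatR c [] = [] := rfl
    rw [this] at ht
    simp at ht
  | s0 :: fr, t, ht => by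
    rw [flatR_cons] at ht
    rcases candsR_sub _ _ _ _ _ t ht with h | h
    · obtain ⟨s, hs, hsub⟩ := flatR_sub c fr t h
      exact ⟨s, List.mem_cons_of_mem _ hs, hsub⟩
    · exact ⟨s0, List.mem_cons_self, h⟩

/-- `domR t s`: the lists have the same length and `t` is elementwise at most `s` (the same
as `dominates`) -/
noncomputable def domR (t : List ℕ) : List ℕ → Bool :=
  List.rec (motive := fun _ => List ℕ → Bool) (fun s => s.isEmpty)
    (fun a _ ih s =>
      List.rec (motive := fun _ => Bool) false (fun b s' _ => Nat.ble a b && ih s') s) t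

theorem domR_eq : ∀ (t s : List ℕ), domR t s = dominates t s
  | [], [] => rfl
  | [], _ :: _ => rfl
  | _ :: _, [] => rfl
  | a :: t, b :: s => by
    have h : domR (a :: t) (b :: s) = (Nat.ble a b && domR t s) := rfl
    have h3 : Nat.ble a b = decide (a ≤ b) := by
      by_cases hab : a ≤ b
      · rw [decide_eq_true hab, Nat.ble_eq]
        exact hab
      · rw [decide_eq_false hab, ← Bool.not_eq_true, Nat.ble_eq]
        exact hab
    rw [h, domR_eq t s, h3]
    rfl

/-- is `s` dominated by a state of `acc`? -/
noncomputable def anyDomR (s : List ℕ) (acc : List (List ℕ)) : Bool :=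
  List.rec (motive := fun _ => Bool) false (fun t _ ih => domR t s || ih) acc

theorem anyDomR_true (s : List ℕ) : ∀ acc : List (List ℕ), anyDomR s acc = true →
    ∃ t ∈ acc, dominates t s = true
  | [], h => by
    have : anyDomR s [] = false := rfl
    rw [this] at h
    exact (Bool.false_ne_true h).elim
  | t :: acc, h => by
    have h1 : anyDomR s (t :: acc) = (domR t s || anyDomR s acc) := rfl
    rw [h1, Bool.or_eq_true] at h
    rcases h with h | h
    · exact ⟨t, List.mem_cons_self, by rw [← domR_eq]; exact h⟩
    · obtain ⟨t', ht', hd⟩ := anyDomR_true s acc h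
      exact ⟨t', List.mem_cons_of_mem _ ht', hd⟩

/-- drop dominated states -/
noncomputable def pruneR (l : List (List ℕ)) : List (List ℕ) :=
  List.rec (motive := fun _ => List (List ℕ)) []
    (fun s _ ih => bif anyDomR s ih then ih else s :: ih) l

theorem pruneR_cons (s : List ℕ) (l : List (List ℕ)) :
    pruneR (s :: l) = bif anyDomR s (pruneR l) then pruneR l else s :: pruneR l := rfl

theorem pruneR_sub : ∀ (l : List (List ℕ)), ∀ t ∈ pruneR l, t ∈ l
  | [], t, ht => by
    have : pruneR [] = [] := rfl
    rw [this] at ht
    exact ht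
  | s :: l, t, ht => by
    rw [pruneR_cons] at ht
    cases hcond : anyDomR s (pruneR l) with
    | true =>
      rw [hcond] at ht
      exact List.mem_cons_of_mem _ (pruneR_sub l t ht)
    | false =>
      rw [hcond] at ht
      rcases List.mem_cons.mp ht with rfl | ht
      · exact List.mem_cons_self
      · exact List.mem_cons_of_mem _ (pruneR_sub l t ht)

/-- the search: the small items `negs` are served one after the other; `true` if some state
survives -/
noncomputable def pbfs (L : ℕ) (negs : List ℕ) : List (List ℕ) → Bool :=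
  List.rec (motive := fun _ => List (List ℕ) → Bool) (fun fr => !fr.isEmpty)
    (fun n _ ih fr => ih (pruneR (flatR (L - n) fr))) negs

theorem pbfs_cons (L n : ℕ) (negs : List ℕ) (fr : List (List ℕ)) :
    pbfs L (n :: negs) fr = pbfs L negs (pruneR (flatR (L - n) fr)) := rfl

/-- some state of the frontier splits, together with the small items still to be served, into
fitting triples -/
def PGood (L : ℕ) (negs : List ℕ) (frontier : List (List ℕ)) : Prop :=
  ∃ s ∈ frontier, Splits L ((negs : Multiset ℕ) + (s : Multiset ℕ)) ∧ s.length = 2 * negs.length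

/-- all items of all states are large -/
def PInv (L : ℕ) (frontier : List (List ℕ)) : Prop :=
  ∀ s ∈ frontier, ∀ p ∈ s, L < 3 * p

theorem pexpand_aux (L n : ℕ) (negs s : List ℕ) (P' : Multiset ℕ)
    (b a : ℕ) (hneg : ∀ x ∈ negs, 3 * x ≤ L) (hpos : ∀ p ∈ s, L < 3 * p)
    (hs : (s : Multiset ℕ) = b ::ₘ a ::ₘ P') (hba : b ≤ a) (hfit : n + b + a ≤ L)
    (hsp : Splits L ((negs : Multiset ℕ) + P')) (hlen : s.length = 2 * (negs.length + 1)) :
    ∃ s', (∀ acc, s' ∈ candsR (L - n) s acc s (L - n + 1)) ∧
      Splits L ((negs : Multiset ℕ) + (s' : Multiset ℕ)) ∧ s'.length = 2 * negs.length := by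
  have hb : b ∈ s := by
    have : b ∈ (s : Multiset ℕ) := by rw [hs]; simp
    exact Multiset.mem_coe.mp this
  have herase : ((s.erase b : List ℕ) : Multiset ℕ) = a ::ₘ P' := by
    rw [← Multiset.coe_erase, hs, Multiset.erase_cons_head]
  have ha : a ∈ s.erase b := by
    have : a ∈ ((s.erase b : List ℕ) : Multiset ℕ) := by rw [herase]; simp
    exact Multiset.mem_coe.mp this
  cases hpick : pickMax (L - n - b) (s.erase b) with
  | none =>
    have := pickMax_none hpick a ha
    omega
  | some a' =>
    obtain ⟨ha'mem, ha'b, ha'max⟩ := pickMax_some hpick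
    have haa' : a ≤ a' := ha'max a ha (by omega)
    refine ⟨(s.erase b).erase a', ?_, ?_, ?_⟩
    · intro acc
      have hp : pickR (L - n - b) (eraseR b s) = some a' := by
        rw [eraseR_eq, pickR_eq]
        exact hpick
      have h1 := candsR_mem (L - n) s acc (b := b) (a := a') (by omega) hp s (L - n + 1) hb
        (by omega)
      rwa [eraseR_eq, eraseR_eq] at h1
    · rw [← Multiset.coe_erase, herase]
      by_cases heq : a' = a
      · subst heq
        rw [Multiset.erase_cons_head]
        exact hsp
      · have ha'P : a' ∈ P' := by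
          have : a' ∈ ((s.erase b : List ℕ) : Multiset ℕ) := Multiset.mem_coe.mpr ha'mem
          rw [herase, Multiset.mem_cons] at this
          rcases this with h | h
          · exact (heq h).elim
          · exact h
        rw [Multiset.erase_cons_tail _ (Ne.symm heq)]
        have ha'pos : L < 3 * a' := hpos a' (List.mem_of_mem_erase ha'mem)
        have ha'neg : a' ∉ (negs : Multiset ℕ) := by
          intro h
          have := hneg a' (Multiset.mem_coe.mp h)
          omega
        have h1 := hsp.replace (a := a) (a' := a') (Multiset.mem_add.mpr (Or.inr ha'P)) haa'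
        rw [Multiset.erase_add_right_neg _ ha'neg] at h1
        rw [Multiset.add_cons]
        exact h1
    · rw [List.length_erase_of_mem ha'mem, List.length_erase_of_mem hb]
      omega

theorem pexpand_complete (L n : ℕ) (negs s : List ℕ)
    (hneg : ∀ x ∈ negs, 3 * x ≤ L) (hpos : ∀ p ∈ s, L < 3 * p)
    (hsp : Splits L (((n :: negs : List ℕ) : Multiset ℕ) + (s : Multiset ℕ)))
    (hlen : s.length = 2 * (negs.length + 1)) :
    ∃ s', (∀ acc, s' ∈ candsR (L - n) s acc s (L - n + 1)) ∧
      Splits L ((negs : Multiset ℕ) + (s' : Multiset ℕ)) ∧ s'.length = 2 * negs.length := by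
  have hS : (((n :: negs : List ℕ) : Multiset ℕ) + (s : Multiset ℕ))
      = n ::ₘ ((negs : Multiset ℕ) + (s : Multiset ℕ)) := by
    rw [← Multiset.cons_coe, Multiset.cons_add]
  rw [hS] at hsp
  obtain ⟨b, a, S', hS', hfit, hsp'⟩ := hsp.exists_triple (x := n) (Multiset.mem_cons_self _ _)
  have hrest : (negs : Multiset ℕ) + (s : Multiset ℕ) = b ::ₘ a ::ₘ S' :=
    (Multiset.cons_inj_right n).mp hS'
  obtain ⟨k, hk, hcnt⟩ := splits_neg_count hsp'
  have hcard : Multiset.card S' + 2 = negs.length + s.length := by
    have := congrArg Multiset.card hrest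
    simp only [Multiset.card_add, Multiset.coe_card, Multiset.card_cons] at this
    omega
  have hfn : Multiset.filter (fun y => 3 * y ≤ L) ((negs : Multiset ℕ) + (s : Multiset ℕ))
      = (negs : Multiset ℕ) := by
    rw [Multiset.filter_add,
      Multiset.filter_eq_self.mpr (fun x hx => hneg x (Multiset.mem_coe.mp hx)),
      Multiset.filter_eq_nil.mpr (fun x hx => by
        have := hpos x (Multiset.mem_coe.mp hx)
        omega), add_zero]
  have hcardf : Multiset.card (Multiset.filter (fun y => 3 * y ≤ L) (b ::ₘ a ::ₘ S'))
      = negs.length := by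
    rw [← hrest, hfn, Multiset.coe_card]
  have hb : L < 3 * b := by
    by_contra hcon
    rw [Multiset.filter_cons_of_pos (p := fun y => 3 * y ≤ L) _ (by omega : 3 * b ≤ L),
      Multiset.card_cons] at hcardf
    have h1 : Multiset.card (Multiset.filter (fun y => 3 * y ≤ L) S') ≤
        Multiset.card (Multiset.filter (fun y => 3 * y ≤ L) (a ::ₘ S')) :=
      Multiset.card_le_card (Multiset.filter_le_filter _ (Multiset.le_cons_self S' a))
    omega
  have ha : L < 3 * a := by
    by_contra hcon
    rw [Multiset.filter_cons_of_neg (p := fun y => 3 * y ≤ L) _ (by omega : ¬ 3 * b ≤ L),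
      Multiset.filter_cons_of_pos (p := fun y => 3 * y ≤ L) _ (by omega : 3 * a ≤ L),
      Multiset.card_cons] at hcardf
    omega
  have hfp : Multiset.filter (fun y => ¬ 3 * y ≤ L) ((negs : Multiset ℕ) + (s : Multiset ℕ))
      = (s : Multiset ℕ) := by
    rw [Multiset.filter_add,
      Multiset.filter_eq_nil.mpr (fun x hx => by
        have := hneg x (Multiset.mem_coe.mp hx)
        omega),
      Multiset.filter_eq_self.mpr (fun x hx => by
        have := hpos x (Multiset.mem_coe.mp hx)
        omega), zero_add]
  have hs : (s : Multiset ℕ) = b ::ₘ a ::ₘ Multiset.filter (fun y => ¬ 3 * y ≤ L) S' := by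
    rw [← hfp, hrest,
      Multiset.filter_cons_of_pos (p := fun y => ¬ 3 * y ≤ L) _ (by omega : ¬ 3 * b ≤ L),
      Multiset.filter_cons_of_pos (p := fun y => ¬ 3 * y ≤ L) _ (by omega : ¬ 3 * a ≤ L)]
  have hnegs : (negs : Multiset ℕ) = Multiset.filter (fun y => 3 * y ≤ L) S' := by
    rw [← hfn, hrest,
      Multiset.filter_cons_of_neg (p := fun y => 3 * y ≤ L) _ (by omega : ¬ 3 * b ≤ L),
      Multiset.filter_cons_of_neg (p := fun y => 3 * y ≤ L) _ (by omega : ¬ 3 * a ≤ L)]
  have hsp'' : Splits L ((negs : Multiset ℕ) + Multiset.filter (fun y => ¬ 3 * y ≤ L) S') := by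
    rw [hnegs, Multiset.filter_add_not]
    exact hsp'
  rcases le_total b a with hba | hab
  · exact pexpand_aux L n negs s _ b a hneg hpos hs hba hfit hsp'' hlen
  · rw [Multiset.cons_swap] at hs
    exact pexpand_aux L n negs s _ a b hneg hpos hs hab (by omega) hsp'' hlen

theorem pruneR_complete (L : ℕ) (negs : List ℕ) : ∀ (l : List (List ℕ)), PGood L negs l →
    PGood L negs (pruneR l)
  | [], h => by
    obtain ⟨s, hs, _⟩ := h
    simp at hs
  | s0 :: l, h => by
    obtain ⟨s, hs, hsp, hlen⟩ := h
    rw [pruneR_cons]
    rcases List.mem_cons.mp hs with rfl | hsl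
    · cases hcond : anyDomR s (pruneR l) with
      | true =>
        obtain ⟨t, ht, htd⟩ := anyDomR_true s _ hcond
        obtain ⟨hrel, hl⟩ := dominates_rel t s htd
        refine ⟨t, ht, hsp.mono_rel ?_, by omega⟩
        exact Multiset.Rel.add (Multiset.rel_refl_of_refl_on (fun x _ => le_refl x)) hrel
      | false => exact ⟨s, List.mem_cons_self, hsp, hlen⟩
    · obtain ⟨t, ht, htsp, htlen⟩ := pruneR_complete L negs l ⟨s, hsl, hsp, hlen⟩
      cases hcond : anyDomR s0 (pruneR l) with
      | true => exact ⟨t, ht, htsp, htlen⟩
      | false => exact ⟨t, List.mem_cons_of_mem _ ht, htsp, htlen⟩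

theorem pbfs_complete (L : ℕ) : ∀ (negs : List ℕ) (fr : List (List ℕ)),
    (∀ n ∈ negs, 3 * n ≤ L) → PInv L fr → PGood L negs fr → pbfs L negs fr = true
  | [], fr, _, _, h => by
    obtain ⟨s, hs, _, _⟩ := h
    cases fr with
    | nil => simp at hs
    | cons _ _ => rfl
  | n :: negs, fr, hneg, hinv, h => by
    obtain ⟨s, hs, hsp, hlen⟩ := h
    rw [pbfs_cons]
    have hneg' : ∀ x ∈ negs, 3 * x ≤ L := fun x hx => hneg x (List.mem_cons_of_mem _ hx)
    have hinv' : PInv L (flatR (L - n) fr) := by
      intro t ht p hp
      obtain ⟨s1, hs1, hsub⟩ := flatR_sub (L - n) fr t ht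
      exact hinv s1 hs1 p (hsub p hp)
    apply pbfs_complete L negs
    · exact hneg'
    · intro t ht
      exact hinv' t (pruneR_sub _ t ht)
    · apply pruneR_complete
      have hlen' : s.length = 2 * (negs.length + 1) := by
        simpa using hlen
      obtain ⟨s', hmem, hsp', hlen''⟩ :=
        pexpand_complete L n negs s hneg' (hinv s hs) hsp hlen'
      exact ⟨s', flatR_mem (L - n) hmem fr hs, hsp', hlen''⟩

/-- If `pbfs` fails on the `3 (T+1)` smallest items, listed as small items followed by large
ones, then at most `T` disjoint triples of items fit. -/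
theorem TBound_of_pbfs (L : ℕ) (l : List ℕ) (hs : l.Pairwise (fun x y => x ≤ y)) (T : ℕ)
    (negs pos : List ℕ) (hperm : (negs ++ pos).Perm (l.take (3 * (T + 1))))
    (hneg : ∀ n ∈ negs, 3 * n ≤ L) (hpos : ∀ p ∈ pos, L < 3 * p)
    (hlen : pos.length = 2 * negs.length)
    (hsearch : pbfs L negs [pos] = false) : TBound L (l : Multiset ℕ) T := by
  intro M hM hsp
  by_contra hcon
  obtain ⟨k, hk, _⟩ := hsp.card_sum
  have hj : 3 * (T + 1) ≤ Multiset.card M := by omega
  obtain ⟨M1, hM1, hsp1, hc1⟩ := hsp.sub (T + 1) hj
  have hrel := take_rel l hs (3 * (T + 1)) M1 (le_trans hM1 hM) hc1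
  have hsp2 := hsp1.mono_rel hrel
  have hsp3 : Splits L ((negs : Multiset ℕ) + (pos : Multiset ℕ)) := by
    rw [Multiset.coe_add, Multiset.coe_eq_coe.mpr hperm]
    exact hsp2
  have h1 := pbfs_complete L negs [pos] hneg
    (by
      intro s hs' p hp
      rw [List.mem_singleton] at hs'
      subst hs'
      exact hpos p hp)
    ⟨pos, List.mem_singleton.mpr rfl, hsp3, hlen⟩
  rw [hsearch] at h1
  exact Bool.false_ne_true h1

/-- Boolean check of one level on top of the items `X` with at most `tX` disjoint triples;
the same as `levelOK2`, with `pbfs` in place of `bfs`: the first `TY + 1` items of `sY` must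
be small, the others large. -/
noncomputable def levelOK4 (L w : ℕ) (X : List ℕ) (tX : ℕ) (l : Level) : Bool :=
  X.all (fun x => decide (l.xmin ≤ x)) &&
  (decide (X.length ≤ 3 * tX + l.u) &&
  (l.Y.all (fun y => decide (y + 2 * l.xmin ≤ L → y + 2 * w ≤ L)) &&
  (l.Y.all (fun y1 => l.Y.all (fun y2 => decide (y1 + y2 + l.xmin ≤ L → y1 + y2 + w ≤ L))) &&
  (decide (l.lY.Pairwise (fun x y => x ≤ y)) &&
  (decide (l.lY.Perm (l.Y ++ List.replicate l.u w)) &&
  (decide (l.sY.Perm (l.lY.take (3 * (l.TY + 1)))) &&
  ((l.sY.take (l.TY + 1)).all (fun n => decide (3 * n ≤ L)) &&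
  ((l.sY.drop (l.TY + 1)).all (fun p => decide (L < 3 * p)) &&
  (decide ((l.sY.drop (l.TY + 1)).length = 2 * (l.sY.take (l.TY + 1)).length) &&
  ((!(pbfs L (l.sY.take (l.TY + 1)) [l.sY.drop (l.TY + 1)])) &&
  decide ((l.Y.filter (fun y => decide (3 * y ≤ L))).length ≤ l.TY + 1)))))))))))

theorem level_bound4 (L w : ℕ) (hw : L < 3 * w) (X : List ℕ) (tX : ℕ) (l : Level)
    (hX : TBound L (X : Multiset ℕ) tX) (hok : levelOK4 L w X tX l = true) :
    TBound L ((X ++ l.Y : List ℕ) : Multiset ℕ) (tX + l.TY) := by
  simp only [levelOK4, Bool.and_eq_true, List.all_eq_true, decide_eq_true_eq,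
    Bool.not_eq_true'] at hok
  obtain ⟨hxmin, hu, hc1, hc2, hsorted, hperm, hperm2, hnegs, hposs, hlen, hsearch, hneg⟩ := hok
  rw [← Multiset.coe_add]
  refine nest L w l.xmin (X : Multiset ℕ) (l.Y : Multiset ℕ) tX l.TY l.u hw ?_ ?_ ?_ hX ?_ ?_ ?_
  · intro x hx
    exact hxmin x (Multiset.mem_coe.mp hx)
  · intro y hy
    exact hc1 y (Multiset.mem_coe.mp hy)
  · intro y1 hy1 y2 hy2
    exact hc2 y1 (Multiset.mem_coe.mp hy1) y2 (Multiset.mem_coe.mp hy2)
  · simpa using hu
  · have hperm3 : (l.sY.take (l.TY + 1) ++ l.sY.drop (l.TY + 1)).Perm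
        (l.lY.take (3 * (l.TY + 1))) := by
      rw [List.take_append_drop]
      exact hperm2
    have h1 := TBound_of_pbfs L l.lY hsorted l.TY _ _ hperm3 hnegs hposs hlen hsearch
    have h2 : (l.lY : Multiset ℕ) = (l.Y : Multiset ℕ) + Multiset.replicate l.u w := by
      rw [← Multiset.coe_replicate, Multiset.coe_add]
      exact Multiset.coe_eq_coe.mpr hperm
    rw [← h2]
    exact h1
  · have h3 : Multiset.filter (fun y => 3 * y ≤ L) (l.Y : Multiset ℕ)
        = ((l.Y.filter (fun y => decide (3 * y ≤ L)) : List ℕ) : Multiset ℕ) := by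
      rw [Multiset.filter_coe]
    rw [h3, Multiset.coe_card]
    exact hneg

end Vale.Agent.Lib.P302N
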