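import Vale.Agent.Lib.P302N.Nest

/-!
# A complete search with a counting prune and a free branching order

`search2 L k l` decides whether the list `l` (of length `3 * k`, in any order) splits into `k`
triples of sum at most `L`.  Besides the sum test of `search` it uses the fact that every
fitting triple contains an item `y` with `3 * y ≤ L`.
-/

namespace Vale.Agent.Lib.P302N

open Vale.Agent.Lib.P302T

/-- complete search: can the list (of length `3 * k`) be split into `k` fitting triples? -/
def search2 (L : ℕ) : ℕ → List ℕ → Bool
  | 0, l => l.isEmpty
  | _ + 1, [] => false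
  | k + 1, x :: rest =>
    if (k + 1) * L < (x :: rest).sum then false
    else if ((x :: rest).filter (fun y => decide (3 * y ≤ L))).length < k + 1 then false
    else rest.dedup.any (fun b =>
      if x + b ≤ L then
        match pickMax (L - x - b) (rest.erase b) with
        | none => false
        | some a => search2 L k ((rest.erase b).erase a)
      else false)

theorem splits_neg_count {L : ℕ} {S : Multiset ℕ} (h : Splits L S) :
    ∃ k, Multiset.card S = 3 * k ∧ k ≤ Multiset.card (S.filter (fun y => 3 * y ≤ L)) := by
  induction h with
  | nil => exact ⟨0, by simp, by simp⟩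
  | cons a b c S hfit _ ih =>
    obtain ⟨k, hk, hneg⟩ := ih
    refine ⟨k + 1, by simp only [Multiset.card_cons]; omega, ?_⟩
    have hB1 : S ≤ c ::ₘ S := Multiset.le_cons_self S c
    have hB2 : S ≤ b ::ₘ c ::ₘ S := le_trans hB1 (Multiset.le_cons_self _ b)
    have key : Multiset.card (S.filter (fun y => 3 * y ≤ L)) + 1
        ≤ Multiset.card ((a ::ₘ b ::ₘ c ::ₘ S).filter (fun y => 3 * y ≤ L)) := by
      by_cases ha : 3 * a ≤ L
      · exact filter_card_succ_le L S _ a ha (Multiset.cons_le_cons a hB2)
      by_cases hb : 3 * b ≤ L
      · exact filter_card_succ_le L S _ b hb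
          (le_trans (Multiset.cons_le_cons b hB1) (Multiset.le_cons_self _ a))
      · have hc : 3 * c ≤ L := by omega
        exact filter_card_succ_le L S _ c hc
          (le_trans (Multiset.le_cons_self _ b) (Multiset.le_cons_self _ a))
    omega

theorem search2_complete (L : ℕ) : ∀ (k : ℕ) (l : List ℕ), Splits L (l : Multiset ℕ) →
    l.length = 3 * k → search2 L k l = true := by
  intro k
  induction k with
  | zero =>
    intro l _ hlen
    have : l = [] := List.length_eq_zero_iff.mp (by omega)
    subst this
    rfl
  | succ k ih =>
    intro l hsp hlen
    cases l with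
    | nil => simp at hlen
    | cons x rest =>
      unfold search2
      obtain ⟨k', hk', hsum⟩ := hsp.card_sum
      have hkk : k' = k + 1 := by
        simp only [Multiset.coe_card] at hk'
        omega
      subst hkk
      have hsum' : ¬ ((k + 1) * L < (x :: rest).sum) := by
        have : ((x :: rest : List ℕ) : Multiset ℕ).sum = (x :: rest).sum := Multiset.sum_coe _
        omega
      rw [if_neg hsum']
      have hneg' : ¬ (((x :: rest).filter (fun y => decide (3 * y ≤ L))).length < k + 1) := by
        obtain ⟨k2, hk2, hneg⟩ := splits_neg_count hsp
        have hkk2 : k2 = k + 1 := by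
          simp only [Multiset.coe_card] at hk2
          omega
        subst hkk2
        have h3 : Multiset.filter (fun y => 3 * y ≤ L) ((x :: rest : List ℕ) : Multiset ℕ)
            = (((x :: rest).filter (fun y => decide (3 * y ≤ L)) : List ℕ) : Multiset ℕ) := by
          rw [Multiset.filter_coe]
        rw [h3, Multiset.coe_card] at hneg
        omega
      rw [if_neg hneg']
      obtain ⟨b, a, S', hS', hfit, hsp'⟩ := hsp.exists_triple (x := x) (by simp)
      have hrest : (rest : Multiset ℕ) = b ::ₘ a ::ₘ S' := by
        have h1 : ((x :: rest : List ℕ) : Multiset ℕ) = x ::ₘ (rest : Multiset ℕ) := rfl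
        rw [h1] at hS'
        exact (Multiset.cons_inj_right x).mp hS'
      have hb : b ∈ rest := by
        have : b ∈ (rest : Multiset ℕ) := by rw [hrest]; simp
        exact Multiset.mem_coe.mp this
      have herase : ((rest.erase b : List ℕ) : Multiset ℕ) = a ::ₘ S' := by
        rw [← Multiset.coe_erase, hrest, Multiset.erase_cons_head]
      have ha : a ∈ rest.erase b := by
        have : a ∈ ((rest.erase b : List ℕ) : Multiset ℕ) := by rw [herase]; simp
        exact Multiset.mem_coe.mp this
      rw [List.any_eq_true]
      refine ⟨b, List.mem_dedup.mpr hb, ?_⟩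
      have hxb : x + b ≤ L := by omega
      rw [if_pos hxb]
      cases hpick : pickMax (L - x - b) (rest.erase b) with
      | none =>
        have := pickMax_none hpick a ha
        omega
      | some a' =>
        obtain ⟨ha'mem, ha'b, ha'max⟩ := pickMax_some hpick
        have haa' : a ≤ a' := ha'max a ha (by omega)
        apply ih
        · rw [← Multiset.coe_erase, herase]
          by_cases heq : a' = a
          · subst heq
            rw [Multiset.erase_cons_head]
            exact hsp'
          · have ha'S : a' ∈ S' := by
              have : a' ∈ ((rest.erase b : List ℕ) : Multiset ℕ) := Multiset.mem_coe.mpr ha'mem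
              rw [herase, Multiset.mem_cons] at this
              rcases this with h | h
              · exact (heq h).elim
              · exact h
            rw [Multiset.erase_cons_tail _ (Ne.symm heq)]
            exact hsp'.replace ha'S haa'
        · rw [List.length_erase_of_mem ha'mem, List.length_erase_of_mem hb]
          simp only [List.length_cons] at hlen
          omega

/-- If `search2` fails on a rearrangement of the `3 (T+1)` smallest items, then at most `T`
disjoint triples of items fit. -/
theorem TBound_of_search2 (L : ℕ) (l : List ℕ) (hs : l.Pairwise (fun x y => x ≤ y)) (T : ℕ)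
    (l' : List ℕ) (hperm : l'.Perm (l.take (3 * (T + 1))))
    (hsearch : search2 L (T + 1) l' = false) : TBound L (l : Multiset ℕ) T := by
  intro M hM hsp
  by_contra hcon
  obtain ⟨k, hk, _⟩ := hsp.card_sum
  have hj : 3 * (T + 1) ≤ Multiset.card M := by omega
  obtain ⟨M1, hM1, hsp1, hc1⟩ := hsp.sub (T + 1) hj
  have hrel := take_rel l hs (3 * (T + 1)) M1 (le_trans hM1 hM) hc1
  have hsp2 := hsp1.mono_rel hrel
  have hlen : l'.length = 3 * (T + 1) := by
    have h1 : Multiset.card M1 ≤ Multiset.card (l : Multiset ℕ) :=
      Multiset.card_le_card (le_trans hM1 hM)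
    simp only [Multiset.coe_card] at h1
    rw [hperm.length_eq, List.length_take]
    omega
  have hsp3 : Splits L ((l' : List ℕ) : Multiset ℕ) := by
    rw [Multiset.coe_eq_coe.mpr hperm]
    exact hsp2
  have := search2_complete L (T + 1) _ hsp3 hlen
  rw [hsearch] at this
  exact Bool.false_ne_true this

end Vale.Agent.Lib.P302N
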